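import Claimed.Agent.R282.S2C.B.Dot
import Claimed.Agent.R282.S2AB.Defs
import Claimed.Agent.R282.Sched.Weyl

/-!
# 2C / BP-C1: the datum of `D_n`

`IsDatumOf ty D` : `D.roots` = vectors of the roots of the family, `D.W` = the frames `w.act`, `D.rho = rhoV n`.
Only `ty = Ty.D` is needed (type A is derived from type D by helper103's central shift).
PLAN.
(1) `WD.toFr (w : WD n) : Fr n` : `toFun = w.act`, `invFun x i = sgnB (w.s (w.σ i)) * x (w.σ i)`; linear; `sgnB b * sgnB b = 1`.
(2) group structure: product `(w w').σ = w.σ * w'.σ`, `(w w').s i = xor (w.s i) (w'.s (w.σ.symm i))`; evenness of the number of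
    signs of a product: `∏_i sgnB (s i) = (-1)^{#true}`; use the multiplicative character `w ↦ ∏_i sgnB (w.s i)` (`Finset.prod_mul_distrib`,
    `Equiv.prod_comp`), `Even (#true) ↔ ∏ sgnB = 1`.  `W := {f | ∃ w, f = w.toFr}` as a `Subgroup (Fr n)`; finite: image of the finite type
    `Equiv.Perm (Fin n) × (Fin n → Bool)`.
(3) `roots := Finset.univ.image RootD.vec` (give `Fintype (RootD n)` via an equivalence/injection into `Fin n × Fin n × Bool × Bool`).
(4) axioms: `norm_two`, `pair_int` : coordinates; write `β.vec = sgnB si • e_i + sgnB sj • e_j` and `dot (e_i) (e_j) = δ_ij`; `pair_int`: case analysis on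
    the coincidences of the four indices.  `isom`: `Equiv.sum_comp`.  `map_roots`: `w.act (± e_i ± e_j) = ± e_{σ i} ± e_{σ j}`.
    `refl_mem`: `s_{e_i - e_j}` = transposition, `s_{e_i + e_j}` = transposition with two sign changes (general signs: 4 cases, or use `reflV_neg_root`).
    `rho_reg`: `ρ·(e_i - e_j) = j - i`, `ρ·(e_i + e_j) = 2n - 2 - i - j > 0` for `i ≠ j`.
    `free`: `w` maps positive roots to positive roots.  From `e_i - e_j` and `e_i + e_j` (`i < j`) both positive after `w`: the image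
    `± e_{σ i} ± e_{σ j}`: both positive forces `σ i < σ j` and sign `+` at `σ i`; so `σ` is increasing ⇒ `σ = 1`, all signs `+` except possibly the last;
    evenness ⇒ all `+`.  (`n ≤ 1`: `σ = 1`, evenness.)  Then `w.toFr = 1` (ext).
Size: ~900 lines; split: (1)+(2) (350) | (3)+(4 without free) (350) | free (200).
-/

set_option autoImplicit false

namespace Claimed.Agent.R282

variable {n : ℕ}

/-- `D` is the datum of the family `ty` on `Vec n` -/
structure IsDatumOf (ty : Ty) (D : RDatum n) : Prop where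
  roots_iff : ∀ β : Vec n, β ∈ D.roots ↔ ∃ r : RootD n, ty.IsRoot r ∧ β = r.vec
  W_iff : ∀ f : Fr n, f ∈ D.W ↔ ∃ w : WD n, ty.IsW w ∧ ∀ x, f x = w.act x
  rho_eq : D.rho = rhoV n

/-- the frame of an even signed permutation -/
def c2c1Fr (w : WD n) : Fr n where
  toFun := w.act
  map_add' := (sc_WD_act_isLinear w).map_add
  map_smul' := (sc_WD_act_isLinear w).map_smul
  invFun := (scwInv w.toWB).act
  left_inv := scw_inv_act_left w.toWB
  right_inv := scw_inv_act_right w.toWB

/-- the group of frames -/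
def c2c1W (n : ℕ) : Subgroup (Fr n) where
  carrier := {f | ∃ w : WD n, ∀ x, f x = w.act x}
  mul_mem' := by
    rintro f g ⟨u, hu⟩ ⟨v, hv⟩
    obtain ⟨w, hw⟩ := sc_WD_mul u v
    exact ⟨w, fun x => by rw [hw, ← hv, ← hu]; rfl⟩
  one_mem' := by
    obtain ⟨w, hw⟩ := sc_WD_one (n := n)
    exact ⟨w, fun x => by rw [hw]; rfl⟩
  inv_mem' := by
    rintro f ⟨u, hu⟩
    obtain ⟨w, _, hw⟩ := sc_WD_inv u
    refine ⟨w, fun x => ?_⟩
    show f.symm x = w.act x
    rw [LinearEquiv.symm_apply_eq, hu, hw]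

theorem c2c1_finite_W (n : ℕ) : Finite (c2c1W n) := by
  have := sc_finite_WD (n := n)
  refine Finite.of_surjective (fun w : WD n => (⟨c2c1Fr w, ⟨w, fun _ => rfl⟩⟩ : c2c1W n)) ?_
  rintro ⟨f, w, hw⟩
  exact ⟨w, Subtype.ext (LinearEquiv.ext fun x => (hw x).symm)⟩

theorem c2c1_finite_roots (n : ℕ) : (Set.range (RootD.vec : RootD n → Vec n)).Finite := by
  have := sc_finite_RootD (n := n)
  exact Set.finite_range _

theorem c2c1_rho_nonneg (i : Fin n) : 0 ≤ rhoV n i := by
  have : ((i : ℕ) : ℝ) + 1 ≤ n := by exact_mod_cast i.2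
  simp only [rhoV]
  linarith

theorem c2c1_rho_lt {i j : Fin n} : rhoV n j < rhoV n i ↔ i < j := by
  simp only [rhoV]
  constructor
  · intro h
    have : ((i : ℕ) : ℝ) < j := by linarith
    exact_mod_cast this
  · intro h
    have : ((i : ℕ) : ℝ) < j := by exact_mod_cast h
    linarith

theorem c2c1_rho_inj {i j : Fin n} (h : rhoV n i = rhoV n j) : i = j := by
  simp only [rhoV] at h
  have : ((i : ℕ) : ℝ) = j := by linarith
  exact Fin.ext (by exact_mod_cast this)

theorem c2c1_rho_add_pos {i j : Fin n} (h : i ≠ j) : 0 < rhoV n i + rhoV n j := by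
  rcases lt_or_gt_of_ne h with h | h
  · have := c2c1_rho_lt.2 h
    have := c2c1_rho_nonneg j
    linarith
  · have := c2c1_rho_lt.2 h
    have := c2c1_rho_nonneg i
    linarith

theorem c2c1_rho_reg (r : RootD n) : dot (rhoV n) r.vec ≠ 0 := by
  rw [sc_dot_vec]
  have h1 := c2c1_rho_add_pos r.ne
  have h2 : rhoV n r.i ≠ rhoV n r.j := fun h => r.ne (c2c1_rho_inj h)
  rcases sc_sgnB_cases r.si with h | h <;> rcases sc_sgnB_cases r.sj with h' | h' <;> rw [h, h']
  · intro h0; linarith
  · intro h0; apply h2; linarith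
  · intro h0; apply h2; linarith
  · intro h0; linarith

theorem c2c1_pair_int (r r' : RootD n) (h1 : r.vec ≠ r'.vec) (h2 : r.vec ≠ - r'.vec) :
    dot r.vec r'.vec = 1 ∨ dot r.vec r'.vec = 0 ∨ dot r.vec r'.vec = -1 := by
  obtain ⟨z, hz, hz1, hz2⟩ := sc_vec_dot_vec_int r r'
  have n2 : z ≠ 2 := by
    rintro rfl
    exact h1 (sc_vec_dot_vec_two r r' (by rw [hz]; norm_num)).symm
  have n2' : z ≠ -2 := by
    rintro rfl
    apply h2
    rw [← sc_neg_vec]
    refine (sc_vec_dot_vec_two r r'.opp ?_).symm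
    rw [sc_neg_vec, dot_neg_right, hz]
    norm_num
  rw [hz]
  have : z = 1 ∨ z = 0 ∨ z = -1 := by omega
  rcases this with rfl | rfl | rfl
  · left; norm_num
  · right; left; norm_num
  · right; right; norm_num

/-- an even signed permutation which preserves the positive roots is trivial -/
theorem c2c1_free (w : WD n) (h : ∀ r : RootD n, 0 < dot (rhoV n) r.vec → 0 < dot (rhoV n) (w.act r.vec)) :
    ∀ x, w.act x = x := by
  -- the two inequalities for `i < j`
  have key : ∀ i j : Fin n, i < j → w.s (w.σ i) = false ∧ w.σ i < w.σ j := by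
    intro i j hij
    have hne : i ≠ j := ne_of_lt hij
    have hlt := c2c1_rho_lt.2 hij
    have hp := h ⟨i, j, hne, false, false⟩ (by
      rw [sc_dot_vec]; simp only [sgnB]; have := c2c1_rho_add_pos hne; simpa using this)
    have hm := h ⟨i, j, hne, false, true⟩ (by
      rw [sc_dot_vec]; simp only [sgnB]; simp; linarith)
    rw [← sc_toWB_act, ← sc_map_vec, sc_dot_vec] at hp hm
    simp only [RootD.map, WD.toWB, sc_sgnB_xor] at hp hm
    simp only [sgnB] at hp hm
    have hi0 := c2c1_rho_nonneg (w.σ i)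
    have hj0 := c2c1_rho_nonneg (w.σ j)
    have hs : w.s (w.σ i) = false := by
      by_contra hcon
      have : w.s (w.σ i) = true := by simpa using hcon
      rw [this] at hp hm
      simp at hp hm
      linarith
    refine ⟨hs, c2c1_rho_lt.1 ?_⟩
    rw [hs] at hp hm
    cases hb : w.s (w.σ j) <;> rw [hb] at hp hm <;> simp at hp hm <;> linarith
  have hmono : StrictMono w.σ := fun i j hij => (key i j hij).2
  have hσ : ∀ i, w.σ i = i := by
    intro i
    have e : hmono.orderIsoOfSurjective w.σ w.σ.surjective = OrderIso.refl (Fin n) := Subsingleton.elim _ _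
    have := congrArg (fun f : Fin n ≃o Fin n => f i) e
    simpa using this
  have hs : ∀ i j : Fin n, i < j → w.s i = false := by
    intro i j hij
    have := (key i j hij).1
    rwa [hσ] at this
  have hall : ∀ i, w.s i = false := by
    by_contra hcon
    push Not at hcon
    obtain ⟨k, hk⟩ := hcon
    have hk' : w.s k = true := by simpa using hk
    have hfil : (Finset.univ.filter fun i => w.s i = true) = {k} := by
      ext i
      simp only [Finset.mem_filter, Finset.mem_univ, true_and, Finset.mem_singleton]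
      constructor
      · intro hi
        rcases lt_trichotomy i k with hlt | heq | hgt
        · rw [hs i k hlt] at hi; exact absurd hi (by simp)
        · exact heq
        · rw [hs k i hgt] at hk'; exact absurd hk' (by simp)
      · rintro rfl; exact hk'
    have := w.even
    rw [hfil] at this
    simp at this
  intro x
  funext i
  have hσ' : w.σ.symm i = i := by rw [Equiv.symm_apply_eq, hσ]
  simp [WD.act, hall i, hσ', sgnB]

/-- (C1) the datum exists: axioms of `RDatum` for `D_n` -/
theorem exists_datum (n : ℕ) : ∃ D : RDatum n, IsDatumOf Ty.D D := by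
  have hmem : ∀ β : Vec n, β ∈ (c2c1_finite_roots n).toFinset ↔ ∃ r : RootD n, β = r.vec := by
    intro β
    rw [Set.Finite.mem_toFinset]
    exact ⟨fun ⟨r, hr⟩ => ⟨r, hr.symm⟩, fun ⟨r, hr⟩ => ⟨r, hr.symm⟩⟩
  refine ⟨{ roots := (c2c1_finite_roots n).toFinset
            W := c2c1W n
            finW := c2c1_finite_W n
            rho := rhoV n
            norm_two := ?_
            pair_int := ?_
            isom := ?_
            map_roots := ?_
            refl_mem := ?_
            rho_reg := ?_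
            free := ?_ }, ⟨?_, ?_, rfl⟩⟩
  · intro β hβ
    obtain ⟨r, rfl⟩ := (hmem β).1 hβ
    exact sc_vec_dot_self r
  · intro α hα β hβ h1 h2
    obtain ⟨r, rfl⟩ := (hmem α).1 hα
    obtain ⟨r', rfl⟩ := (hmem β).1 hβ
    exact c2c1_pair_int r r' h1 h2
  · rintro f ⟨w, hw⟩ x y
    rw [hw, hw, sc_dot_WD_act]
  · rintro f ⟨w, hw⟩ β hβ
    obtain ⟨r, rfl⟩ := (hmem β).1 hβ
    exact (hmem _).2 ⟨r.map w.toWB, by rw [hw, sc_map_vec]; rfl⟩
  · intro β hβ
    obtain ⟨r, rfl⟩ := (hmem β).1 hβ
    obtain ⟨w, hw⟩ := sc_WD_refl r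
    exact ⟨c2c1Fr w, ⟨w, fun _ => rfl⟩, fun x => hw x⟩
  · intro β hβ
    obtain ⟨r, rfl⟩ := (hmem β).1 hβ
    exact c2c1_rho_reg r
  · rintro f ⟨w, hw⟩ h
    refine LinearEquiv.ext fun x => ?_
    rw [hw]
    refine c2c1_free w (fun r hr => ?_) x
    rw [← hw]
    exact h r.vec ((hmem _).2 ⟨r, rfl⟩) hr
  · intro β
    rw [hmem]
    exact ⟨fun ⟨r, hr⟩ => ⟨r, trivial, hr⟩, fun ⟨r, _, hr⟩ => ⟨r, hr⟩⟩
  · intro f
    exact ⟨fun ⟨w, hw⟩ => ⟨w, trivial, hw⟩, fun ⟨w, _, hw⟩ => ⟨w, hw⟩⟩

end Claimed.Agent.R282
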