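import Claimed.Agent.R282.S2C.C.Datum

/-!
# 2C / L-C2: dictionary for chambers and the central equation (type D)

PLAN.  Positive roots of the datum: `r.vec` with `0 < ρ·r.vec`: these are `e_i - e_j`, `e_i + e_j` with `i < j`
(in either order of the two indices of `RootD`).
* `cham_iff`: `x·(e_i - e_j) = x_i - x_j ≥ 0` and `x·(e_i + e_j) = x_i + x_j ≥ 0` for all `i < j` ⇔ `|x_j| ≤ x_i` (`abs_le`).
* `reg_iff`: same with strict signs (`abs_lt`).
* `central_iff`: `Central a b c` says `(a + b - c) ⊥ (roots)^⊥`.  Finite-dimensional double orthogonal complement for the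
  bilinear form `dot`; cheapest: `n ≤ 1`: no roots (`RootD n` is empty), `ss = ⊥`, and `Central` with `z = e_0` resp. all `z` gives `a + b - c = 0`;
  `n ≥ 2`: `2 e_i = (e_i - e_j) + (e_i + e_j)` so `ss = ⊤`, and the only `z ⊥` all roots is `0`.
Size: ~350 lines.
-/

set_option autoImplicit false

namespace Claimed.Agent.R282

variable {n : ℕ} {D : RDatum n} (hD : IsDatumOf Ty.D D)
include hD

omit hD in
theorem c2c_dot_vec (x : Vec n) (r : RootD n) :
    dot x r.vec = sgnB r.si * x r.i + sgnB r.sj * x r.j := by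
  simp only [dot, RootD.vec, mul_add, Finset.sum_add_distrib, mul_ite, mul_zero,
    Finset.sum_ite_eq', Finset.mem_univ, if_true]
  ring

omit hD in
theorem c2c_rho_lt {i j : Fin n} : rhoV n j < rhoV n i ↔ i < j := by
  unfold rhoV
  constructor
  · intro h
    have : ((i : ℕ) : ℝ) < ((j : ℕ) : ℝ) := by linarith
    exact Fin.lt_def.2 (Nat.cast_lt.1 this)
  · intro h
    have : ((i : ℕ) : ℝ) < ((j : ℕ) : ℝ) := Nat.cast_lt.2 (Fin.lt_def.1 h)
    linarith

omit hD in
theorem c2c_rho_nonneg (i : Fin n) : 0 ≤ rhoV n i := by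
  unfold rhoV
  have h1 : (i : ℕ) + 1 ≤ n := i.2
  have : (((i : ℕ) + 1 : ℕ) : ℝ) ≤ (n : ℝ) := Nat.cast_le.2 h1
  push_cast at this
  linarith

omit hD in
theorem c2c_rho_pos {i j : Fin n} (h : i < j) : 0 < rhoV n i :=
  lt_of_le_of_lt (c2c_rho_nonneg j) (c2c_rho_lt.2 h)

theorem IsDatumOf.pos_iff (β : Vec n) :
    D.Pos β ↔ ∃ r : RootD n, β = r.vec ∧ 0 < dot (rhoV n) r.vec := by
  unfold RDatum.Pos
  rw [hD.roots_iff, hD.rho_eq]
  constructor
  · rintro ⟨⟨r, -, rfl⟩, h⟩
    exact ⟨r, rfl, h⟩
  · rintro ⟨r, rfl, h⟩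
    exact ⟨⟨r, trivial, rfl⟩, h⟩

omit hD in
/-- the positive roots, listed -/
theorem c2c_pos_cases (r : RootD n) (h : 0 < dot (rhoV n) r.vec) :
    (r.si = false ∧ r.sj = false) ∨ (r.si = false ∧ r.sj = true ∧ r.i < r.j) ∨
      (r.si = true ∧ r.sj = false ∧ r.j < r.i) := by
  rw [c2c_dot_vec] at h
  have h1 := c2c_rho_nonneg r.i
  have h2 := c2c_rho_nonneg r.j
  cases hsi : r.si <;> cases hsj : r.sj <;> rw [hsi, hsj] at h <;>
    simp only [sgnB, Bool.false_eq_true, if_false, if_true] at h
  · exact Or.inl ⟨rfl, rfl⟩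
  · exact Or.inr (Or.inl ⟨rfl, rfl, (c2c_rho_lt (i := r.i) (j := r.j)).1 (by linarith)⟩)
  · exact Or.inr (Or.inr ⟨rfl, rfl, (c2c_rho_lt (i := r.j) (j := r.i)).1 (by linarith)⟩)
  · linarith

/-- (C2) -/
theorem IsDatumOf.cham_iff (x : Vec n) : D.Cham x ↔ Ty.D.Dom x := by
  constructor
  · intro h i j hij
    have h1 := h (RootD.vec ⟨i, j, hij.ne, false, false⟩) ((hD.pos_iff _).2 ⟨_, rfl, by
      rw [c2c_dot_vec]
      simp only [sgnB, Bool.false_eq_true, if_false]
      have := c2c_rho_pos hij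
      have := c2c_rho_nonneg j
      linarith⟩)
    have h2 := h (RootD.vec ⟨i, j, hij.ne, false, true⟩) ((hD.pos_iff _).2 ⟨_, rfl, by
      rw [c2c_dot_vec]
      simp only [sgnB, Bool.false_eq_true, if_false, if_true]
      have := c2c_rho_lt.2 hij
      linarith⟩)
    rw [c2c_dot_vec] at h1 h2
    simp only [sgnB, Bool.false_eq_true, if_false, if_true] at h1 h2
    exact abs_le.2 ⟨by linarith, by linarith⟩
  · intro h β hβ
    obtain ⟨r, rfl, hr⟩ := (hD.pos_iff β).1 hβ
    rw [c2c_dot_vec]
    rcases c2c_pos_cases r hr with ⟨h1, h2⟩ | ⟨h1, h2, h3⟩ | ⟨h1, h2, h3⟩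
    · simp only [h1, h2, sgnB, Bool.false_eq_true, if_false]
      rcases lt_or_gt_of_ne r.ne with h3 | h3
      · have := abs_le.1 (h _ _ h3)
        linarith
      · have := abs_le.1 (h _ _ h3)
        linarith
    · simp only [h1, h2, sgnB, Bool.false_eq_true, if_false, if_true]
      have := abs_le.1 (h _ _ h3)
      linarith
    · simp only [h1, h2, sgnB, Bool.false_eq_true, if_false, if_true]
      have := abs_le.1 (h _ _ h3)
      linarith

/-- (C2') -/
theorem IsDatumOf.reg_iff (x : Vec n) : D.Reg x ↔ Ty.D.Reg x := by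
  constructor
  · intro h i j hij
    have h1 := h (RootD.vec ⟨i, j, hij.ne, false, false⟩) ((hD.pos_iff _).2 ⟨_, rfl, by
      rw [c2c_dot_vec]
      simp only [sgnB, Bool.false_eq_true, if_false]
      have := c2c_rho_pos hij
      have := c2c_rho_nonneg j
      linarith⟩)
    have h2 := h (RootD.vec ⟨i, j, hij.ne, false, true⟩) ((hD.pos_iff _).2 ⟨_, rfl, by
      rw [c2c_dot_vec]
      simp only [sgnB, Bool.false_eq_true, if_false, if_true]
      have := c2c_rho_lt.2 hij
      linarith⟩)
    rw [c2c_dot_vec] at h1 h2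
    simp only [sgnB, Bool.false_eq_true, if_false, if_true] at h1 h2
    exact abs_lt.2 ⟨by linarith, by linarith⟩
  · intro h β hβ
    obtain ⟨r, rfl, hr⟩ := (hD.pos_iff β).1 hβ
    rw [c2c_dot_vec]
    rcases c2c_pos_cases r hr with ⟨h1, h2⟩ | ⟨h1, h2, h3⟩ | ⟨h1, h2, h3⟩
    · simp only [h1, h2, sgnB, Bool.false_eq_true, if_false]
      rcases lt_or_gt_of_ne r.ne with h3 | h3
      · have := abs_lt.1 (h _ _ h3)
        linarith
      · have := abs_lt.1 (h _ _ h3)
        linarith
    · simp only [h1, h2, sgnB, Bool.false_eq_true, if_false, if_true]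
      have := abs_lt.1 (h _ _ h3)
      linarith
    · simp only [h1, h2, sgnB, Bool.false_eq_true, if_false, if_true]
      have := abs_lt.1 (h _ _ h3)
      linarith

omit hD in
theorem c2c_ss_top (h2 : 2 ≤ n) (x : Vec n) : x ∈ Ty.D.ss n := by
  haveI : Nontrivial (Fin n) := Fin.nontrivial_iff_two_le.2 h2
  rw [pi_eq_sum_univ x]
  apply Submodule.sum_mem
  intro i _
  apply Submodule.smul_mem
  obtain ⟨j, hj⟩ := exists_ne i
  have e : (fun k : Fin n => if i = k then (1 : ℝ) else 0) =
      (1 / 2 : ℝ) • (RootD.vec ⟨i, j, hj.symm, false, false⟩ +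
        RootD.vec ⟨i, j, hj.symm, false, true⟩) := by
    funext k
    simp only [RootD.vec, sgnB, Pi.smul_apply, Pi.add_apply, smul_eq_mul, Bool.false_eq_true,
      if_false, if_true]
    by_cases h1 : k = i
    · subst h1
      rw [if_neg hj.symm, if_neg hj.symm]
      norm_num
    · have h1' : ¬ i = k := fun h => h1 h.symm
      by_cases h3 : k = j
      · rw [if_neg h1', if_neg h1, if_pos h3, if_pos h3]
        norm_num
      · rw [if_neg h1', if_neg h1, if_neg h3, if_neg h3]
        norm_num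
  rw [e]
  apply Submodule.smul_mem
  apply Submodule.add_mem
  · exact Submodule.subset_span ⟨_, trivial, rfl⟩
  · exact Submodule.subset_span ⟨_, trivial, rfl⟩

/-- (C3) the central equation -/
theorem IsDatumOf.central_iff (a b c : Vec n) : D.Central a b c ↔ a + b - c ∈ Ty.D.ss n := by
  constructor
  · intro h
    by_cases h2 : 2 ≤ n
    · exact c2c_ss_top h2 _
    · have hz : ∀ β ∈ D.roots, dot (a + b - c) β = 0 := by
        intro β hβ
        obtain ⟨r, -, -⟩ := (hD.roots_iff β).1 hβ
        exfalso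
        apply r.ne
        have h1 := r.i.2
        have h3 := r.j.2
        apply Fin.ext
        omega
      have h1 := h _ hz
      have h3 : dot (a + b - c) (a + b - c) = 0 := by
        rw [dot_sub_right, dot_add_right, h1]
        ring
      rw [dot_self_eq_zero.1 h3]
      exact Submodule.zero_mem _
  · intro h z hz
    have key : ∀ v ∈ Ty.D.ss n, dot z v = 0 := by
      intro v hv
      induction hv using Submodule.span_induction with
      | mem v hv =>
        obtain ⟨r, hr, rfl⟩ := hv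
        exact hz _ ((hD.roots_iff _).2 ⟨r, hr, rfl⟩)
      | zero => exact dot_zero_right z
      | add v w _ _ h1 h2 => rw [dot_add_right, h1, h2, add_zero]
      | smul r v _ h1 => rw [dot_smul_right, h1, mul_zero]
    have := key _ h
    rw [dot_sub_right, dot_add_right] at this
    linarith

end Claimed.Agent.R282
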