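import Claimed.Agent.R282.S2C.C.Datum

/-!
# 2C / L-C5: the abstract output `HasBasic` in the shared vocabulary

PLAN.  `HasBasic` : `u0 ∈ D.W`, `l : List (ℝ × Vec n)` with roots in `D.roots`.  Choose `w0 : WD n` with `u0 x = w0.act x` (`W_iff`; so the function
`⇑u0 = w0.act`, `funext`) and for every entry a `r : RootD n` with `β = r.vec` (`roots_iff`): `l' = l.map …` (use `List.pmap`/choice, or prove
`∃ l', l'.map (fun p => (p.1, p.2.vec)) = l` by induction).  Then by induction on the list, for EQUAL states: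
`SwState.step θ t r = SwState.stepV θ t r.vec` (`refl r x = reflV r.vec x` by `rfl`; `c - (-(β·f)) • β = c + (β·f) • β`),
`SwValid ↔ swAllV …` (`gap`, `total` unfold), `runSw = runSwV`, `SwNoBlock` from `NoBlockV` (`a.vec, d.vec ∈ D.roots`), `SwIndep` from `IndepV`
(`List.get` of a map: `LinearIndependent` transported along `Fin.cast`).  `Ty.D.IsW`, `Ty.D.IsRoot` are `True`.
Size: ~300 lines.
-/

set_option autoImplicit false

namespace Claimed.Agent.R282

variable {n : ℕ} {D : RDatum n} (hD : IsDatumOf Ty.D D)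

/-- forget the root structure -/
def c2c5Phi (p : ℝ × RootD n) : ℝ × Vec n := (p.1, p.2.vec)

theorem c2c5_stepV (S : SwState n) (θ : Shape n) (t : ℝ) (r : RootD n) :
    S.stepV θ t r.vec = S.step θ t r := by
  simp only [SwState.stepV, SwState.step, SwState.coeff, neg_smul, sub_neg_eq_add]
  rfl

theorem c2c5_run (θ : Shape n) (S : SwState n) (l : List (ℝ × RootD n)) :
    runSwV θ S (l.map c2c5Phi) = runSw θ S l := by
  induction l generalizing S with
  | nil => rfl
  | cons p l ih =>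
    simp only [List.map_cons, runSwV, runSw, c2c5Phi]
    rw [c2c5_stepV]
    exact ih _

theorem c2c5_valid (θ : Shape n) (S : SwState n) (l : List (ℝ × RootD n))
    (h : swAllV θ (fun S t β => 0 ≤ dot (S.pos θ t) β ∧ 0 ≤ - dot β (S.frame θ.sum)) S (l.map c2c5Phi)) :
    SwValid θ S l := by
  induction l generalizing S with
  | nil => trivial
  | cons p l ih =>
    simp only [List.map_cons, swAllV, c2c5Phi] at h
    rw [c2c5_stepV] at h
    exact ⟨h.1.1, h.1.2, ih _ h.2⟩

include hD in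
theorem IsDatumOf.c2c5_noBlock (θ : Shape n) (S : SwState n) (l : List (ℝ × RootD n))
    (h : D.NoBlockV θ S (l.map c2c5Phi)) : SwNoBlock Ty.D θ S l := by
  induction l generalizing S with
  | nil => trivial
  | cons p l ih =>
    simp only [RDatum.NoBlockV, List.map_cons, swAllV, c2c5Phi] at h
    rw [c2c5_stepV] at h
    refine ⟨fun a d ha hd had => ?_, ih _ h.2⟩
    exact h.1 a.vec ((hD.roots_iff _).2 ⟨a, ha, rfl⟩) d.vec ((hD.roots_iff _).2 ⟨d, hd, rfl⟩) had

theorem c2c5_indep (l : List (ℝ × RootD n)) (h : IndepV (l.map c2c5Phi)) : SwIndep l := by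
  unfold IndepV at h
  unfold SwIndep
  have hlen : l.length = (l.map c2c5Phi).length := by simp
  have h2 := h.comp (Fin.cast hlen) (Fin.cast_injective hlen)
  convert h2 using 1
  funext i
  simp [c2c5Phi]

include hD in
theorem IsDatumOf.c2c5_lift (l : List (ℝ × Vec n)) (h : ∀ p ∈ l, p.2 ∈ D.roots) :
    ∃ l' : List (ℝ × RootD n), l'.map c2c5Phi = l := by
  induction l with
  | nil => exact ⟨[], rfl⟩
  | cons p l ih =>
    obtain ⟨l', hl'⟩ := ih fun q hq => h q (List.mem_cons_of_mem _ hq)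
    obtain ⟨r, -, hr⟩ := (hD.roots_iff _).1 (h p List.mem_cons_self)
    refine ⟨(p.1, r) :: l', ?_⟩
    rw [List.map_cons, hl', c2c5Phi, ← hr]

include hD in
/-- (C5) -/
theorem IsDatumOf.of_hasBasic {lam xi : Vec n} {θ : Shape n} (h : D.HasBasic lam θ xi) :
    ∃ w0 l, IsSched Ty.D lam θ xi w0 l ∧ SwIndep l ∧ SwNoBlock Ty.D θ ⟨w0.act, lam⟩ l := by
  obtain ⟨u0, l, hs, hi, hb⟩ := h
  obtain ⟨w0, -, hw0⟩ := (hD.W_iff u0).1 hs.u0_mem
  have e0 : (⇑u0 : Vec n → Vec n) = w0.act := funext hw0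
  obtain ⟨l', rfl⟩ := hD.c2c5_lift l hs.roots_mem
  have hv := hs.valid
  have he := hs.endpoint
  rw [e0] at hv he hb
  refine ⟨w0, l', ⟨trivial, fun _ _ => trivial, ?_, ?_, c2c5_valid θ _ l' hv, ?_⟩, c2c5_indep l' hi,
    hD.c2c5_noBlock θ _ l' hb⟩
  · intro p hp
    exact hs.times_mem (c2c5Phi p) (List.mem_map_of_mem hp)
  · have := hs.sorted
    rw [List.pairwise_map] at this
    exact this
  · obtain ⟨w, hw, hpos⟩ := he
    obtain ⟨w', -, hw'⟩ := (hD.W_iff w).1 hw
    refine ⟨w', trivial, ?_⟩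
    rw [← c2c5_run, hpos, hw']

end Claimed.Agent.R282
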