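import Claimed.Agent.R282.S2C.C.Dict
import Claimed.Agent.R282.S2C.P.It
import Claimed.Agent.R282.S2C.B.Ge

/-!
# 2C / L-C4: the shared path class `IsDecPath` gives the abstract class `IsDec`

PLAN.  Given `IsDecPath Ty.D lam θ xi w0 l` (`l : List (ℝ × RootD n)`).  Frames: `u0 ∈ D.W` with `u0 x = w0.act x` (`W_iff`); for a switch
`(t, β)` from the frame `a ∈ D.W` the new frame is `s * a`, `s ∈ D.W` acting as `reflV β.vec` (`refl_mem`; `refl β x = reflV β.vec x` by `rfl`).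
Build `l' : List (ℝ × Fr n)` by recursion and prove by induction, for corresponding states
(`SwState ⟨a, c⟩` vs `ASt ⟨a, c⟩`, same `c`):
* `SwState.step` ↔ `ASt.jump`: `c - coeff • β = c + a(η t) - s a (η t)` (`reflV`, `dot_comm`);
* `SwDown` ⇒ `Down a (s a)` ⇒ `Ge` (`ReflTransGen.single`), with `rho_eq`;
* `SwInDom ty θ t₀ S l` ⇒ `∀ t ∈ [t₀, T], Cham (itPos θ S' l' t)` (use `cham_iff`; case split `t ≤ p.1`);
* end point: `itPos … T = (runSw …).pos θ T` because all times are `≤ T` (at `t = p.1 = T` both formulas agree by continuity of the jump).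
Size: ~350 lines.
-/

set_option autoImplicit false

namespace Claimed.Agent.R282

variable {n : ℕ} {D : RDatum n} (hD : IsDatumOf Ty.D D)
include hD

omit hD in
/-- a switch of the shared state machine is a jump of the abstract one -/
theorem c2c_step_eq (θ : Shape n) (a s : Fr n) (c : Vec n) (t : ℝ) (β : RootD n)
    (hs : ∀ x, s x = reflV β.vec x) :
    SwState.step ⟨⇑a, c⟩ θ t β = ⟨⇑(s * a), ((⟨a, c⟩ : ASt n).jump θ t (s * a)).c⟩ := by
  unfold SwState.step SwState.coeff ASt.jump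
  congr 1
  · funext x
    rw [LinearEquiv.mul_apply, hs]
    rfl
  · simp only
    rw [LinearEquiv.mul_apply, hs, reflV, dot_comm β.vec, neg_smul]
    abel

theorem IsDatumOf.c2c_path_aux (θ : Shape n) :
    ∀ (l : List (ℝ × RootD n)) (a : Fr n) (c : Vec n) (t₀ : ℝ), a ∈ D.W →
      (∀ p ∈ l, p.1 ≤ (θ.length : ℝ)) → l.Pairwise (fun p q => p.1 ≤ q.1) →
      SwDown θ ⟨⇑a, c⟩ l → SwInDom Ty.D θ t₀ ⟨⇑a, c⟩ l →
      ∃ l' : List (ℝ × Fr n), (∀ p ∈ l', p.2 ∈ D.W) ∧ l'.map Prod.fst = l.map Prod.fst ∧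
        itAll θ (fun S _ v => D.Ge S.fr v) ⟨a, c⟩ l' ∧
        (∀ t, t₀ ≤ t → t ≤ (θ.length : ℝ) → D.Cham (itPos θ ⟨a, c⟩ l' t)) ∧
        itPos θ ⟨a, c⟩ l' θ.length = (runSw θ ⟨⇑a, c⟩ l).pos θ θ.length
  | [], a, c, t₀, _, _, _, _, hdom =>
    ⟨[], fun p hp => absurd hp List.not_mem_nil, rfl, trivial,
      fun t h1 h2 => (hD.cham_iff _).2 (hdom t h1 h2), rfl⟩
  | p :: l, a, c, t₀, ha, hT, hs, hdown, hdom => by
    obtain ⟨s, hsW, hsβ⟩ := D.refl_mem p.2.vec ((hD.roots_iff _).2 ⟨p.2, trivial, rfl⟩)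
    rw [List.pairwise_cons] at hs
    have hstep := c2c_step_eq θ a s c p.1 p.2 hsβ
    obtain ⟨hd1, hd2, hd3⟩ := hdown
    obtain ⟨hm1, hm2⟩ := hdom
    rw [hstep] at hd3 hm2
    have ha1 : s * a ∈ D.W := D.W.mul_mem hsW ha
    obtain ⟨l', hW', hmap, hchain, hcham, hend⟩ := IsDatumOf.c2c_path_aux θ l (s * a) _ p.1 ha1
      (fun q hq => hT q (List.mem_cons_of_mem _ hq)) hs.2 hd3 hm2
    have htimes : ∀ q ∈ l', p.1 ≤ q.1 := by
      intro q hq
      have : q.1 ∈ l.map Prod.fst := by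
        rw [← hmap]
        exact List.mem_map_of_mem hq
      obtain ⟨q', hq', he⟩ := List.mem_map.1 this
      rw [← he]
      exact hs.1 q' hq'
    refine ⟨(p.1, s * a) :: l', ?_, ?_, ⟨?_, hchain⟩, ?_, ?_⟩
    · intro q hq
      rcases List.mem_cons.1 hq with rfl | hq
      · exact ha1
      · exact hW' q hq
    · rw [List.map_cons, List.map_cons, hmap]
    · apply Relation.ReflTransGen.single
      refine ⟨p.2.vec, ⟨(hD.roots_iff _).2 ⟨p.2, trivial, rfl⟩, ?_⟩, ?_, fun x => ?_⟩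
      · rw [hD.rho_eq]
        exact hd1
      · rw [hD.rho_eq]
        exact hd2
      · rw [LinearEquiv.mul_apply, hsβ]
    · intro t h1 h2
      by_cases ht : t ≤ p.1
      · rw [itPos_cons_le θ _ _ _ ht]
        exact (hD.cham_iff _).2 (hm1 t h1 ht)
      · rw [itPos_cons_gt θ _ _ _ (not_le.1 ht)]
        exact hcham t (not_le.1 ht).le h2
    · rw [itPos_cons_ge θ _ _ _ htimes (hT p (List.mem_cons_self ..))]
      refine Eq.trans hend ?_
      show _ = (runSw θ (SwState.step ⟨⇑a, c⟩ θ p.1 p.2) l).pos θ θ.length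
      rw [hstep]

/-- (C4) -/
theorem IsDatumOf.hasDec_of {lam xi : Vec n} {θ : Shape n} (h : HasDecPath Ty.D lam θ xi) :
    D.HasDec lam θ xi := by
  obtain ⟨w0, l, h⟩ := h
  obtain ⟨u0, hu0, hu0'⟩ : ∃ u0 ∈ D.W, ∀ x, u0 x = w0.act x :=
    ⟨c2c1Fr w0, (hD.W_iff _).2 ⟨w0, trivial, fun _ => rfl⟩, fun _ => rfl⟩
  have he : (⇑u0 : Vec n → Vec n) = w0.act := funext hu0'
  obtain ⟨l', hW', hmap, hchain, hcham, hend⟩ := hD.c2c_path_aux θ l u0 lam 0 hu0
    (fun p hp => (h.times_mem p hp).2) h.sorted (by rw [he]; exact h.down)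
    (by rw [he]; exact h.inDom)
  refine ⟨u0, l', ⟨⟨hu0, hW', ?_, ?_⟩, hchain, hcham, ?_⟩⟩
  · intro q hq
    have : q.1 ∈ l.map Prod.fst := by
      rw [← hmap]
      exact List.mem_map_of_mem hq
    obtain ⟨q', hq', he⟩ := List.mem_map.1 this
    rw [← he]
    exact h.times_mem q' hq'
  · have h1 : (l.map Prod.fst).Pairwise (· ≤ ·) := List.pairwise_map.2 h.sorted
    rw [← hmap] at h1
    exact List.pairwise_map.1 h1
  · rw [hend, he]
    exact h.endpoint

end Claimed.Agent.R282
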