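import Claimed.Agent.R282.S2C.B.Dot

/-!
# 2C / L-C6: a common Weyl action on a basic schedule

PLAN.  Given `(u0, l)` basic for `(g lam, θ, g' xi)`.  New data: `u0' = g⁻¹ * u0`, `l' = l.map (fun p => (p.1, g⁻¹ p.2))`.
Invariant of the induction: states `S = ⟨f, c⟩` and `S' = ⟨g⁻¹ ∘ f, g⁻¹ c⟩`.
`reflV (g⁻¹ β) (g⁻¹ x) = g⁻¹ (reflV β x)` (linearity + `isom`), `dot (g⁻¹ x) (g⁻¹ y) = dot x y`.
So positions, gaps, totals, coefficients correspond; `NoBlockV`: for roots `a + d = g⁻¹ β` use `g a + g d = β`.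
`IndepV`: `LinearIndependent.map'` with the injective linear map `g⁻¹`.
End: `pos' = g⁻¹ (w (g' xi)) = (g⁻¹ w g') xi`.
Size: ~250 lines.
-/

set_option autoImplicit false

namespace Claimed.Agent.R282.RDatum

variable {n : ℕ} (D : RDatum n)

/-- transport of a state by a frame -/
def c2c6_tr (k : Fr n) (S : SwState n) : SwState n := ⟨fun x => k (S.frame x), k S.c⟩

theorem c2c6_reflV {k : Fr n} (hk : k ∈ D.W) (β x : Vec n) :
    reflV (k β) (k x) = k (reflV β x) := by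
  rw [reflV, reflV, D.isom k hk, map_sub, map_smul]

theorem c2c6_step {k : Fr n} (hk : k ∈ D.W) (S : SwState n) (θ : Shape n) (t : ℝ) (β : Vec n) :
    (c2c6_tr k S).stepV θ t (k β) = c2c6_tr k (S.stepV θ t β) := by
  simp only [c2c6_tr, SwState.stepV, SwState.mk.injEq]
  refine ⟨funext fun x => D.c2c6_reflV hk β _, ?_⟩
  rw [D.isom k hk, map_add, map_smul]

theorem c2c6_pos (k : Fr n) (S : SwState n) (θ : Shape n) (t : ℝ) :
    (c2c6_tr k S).pos θ t = k (S.pos θ t) := by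
  simp only [c2c6_tr, SwState.pos, map_add]

theorem c2c6_all {k : Fr n} (hk : k ∈ D.W) (θ : Shape n) {P Q : SwState n → ℝ → Vec n → Prop}
    (hPQ : ∀ S t β, P S t β → Q (c2c6_tr k S) t (k β)) (S : SwState n) (l : List (ℝ × Vec n))
    (h : swAllV θ P S l) : swAllV θ Q (c2c6_tr k S) (l.map fun p => (p.1, k p.2)) := by
  induction l generalizing S with
  | nil => trivial
  | cons p l ih =>
    refine ⟨hPQ _ _ _ h.1, ?_⟩
    show swAllV θ Q ((c2c6_tr k S).stepV θ p.1 (k p.2)) _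
    rw [D.c2c6_step hk]
    exact ih _ h.2

theorem c2c6_run {k : Fr n} (hk : k ∈ D.W) (θ : Shape n) (S : SwState n) (l : List (ℝ × Vec n)) :
    runSwV θ (c2c6_tr k S) (l.map fun p => (p.1, k p.2)) = c2c6_tr k (runSwV θ S l) := by
  induction l generalizing S with
  | nil => rfl
  | cons p l ih =>
    show runSwV θ ((c2c6_tr k S).stepV θ p.1 (k p.2)) _ = _
    rw [D.c2c6_step hk]
    exact ih _

/-- (C6) a common Weyl action on the whole schedule; the end label only matters up to `W` -/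
theorem basic_weyl {lam xi : Vec n} {θ : Shape n} {g g' : Fr n} (hg : g ∈ D.W) (hg' : g' ∈ D.W)
    (h : D.HasBasic (g lam) θ (g' xi)) : D.HasBasic lam θ xi := by
  obtain ⟨u0, l, hs, hi, hb⟩ := h
  have hk : g⁻¹ ∈ D.W := D.W.inv_mem hg
  have hS : (⟨(g⁻¹ * u0 : Fr n), lam⟩ : SwState n) = c2c6_tr g⁻¹ ⟨u0, g lam⟩ := by
    simp only [c2c6_tr, SwState.mk.injEq]
    exact ⟨rfl, (LinearEquiv.symm_apply_apply g lam).symm⟩
  have hgg : ∀ x, g (g⁻¹ x) = x := fun x => LinearEquiv.apply_symm_apply g x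
  refine ⟨g⁻¹ * u0, l.map fun p => (p.1, g⁻¹ p.2),
    ⟨D.W.mul_mem hk hs.u0_mem, ?_, ?_, ?_, ?_, ?_⟩, ?_, ?_⟩
  · intro p hp
    obtain ⟨q, hq, rfl⟩ := List.mem_map.1 hp
    exact D.map_roots _ hk _ (hs.roots_mem q hq)
  · intro p hp
    obtain ⟨q, hq, rfl⟩ := List.mem_map.1 hp
    exact hs.times_mem q hq
  · exact List.pairwise_map.2 hs.sorted
  · rw [hS]
    refine D.c2c6_all hk θ ?_ _ l hs.valid
    intro S t β hP
    rw [c2c6_pos, D.isom _ hk]
    refine ⟨hP.1, ?_⟩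
    show 0 ≤ - dot (g⁻¹ β) (g⁻¹ (S.frame θ.sum))
    rw [D.isom _ hk]
    exact hP.2
  · obtain ⟨w, hw, hwe⟩ := hs.endpoint
    refine ⟨g⁻¹ * w * g', D.W.mul_mem (D.W.mul_mem hk hw) hg', ?_⟩
    rw [hS, D.c2c6_run hk, c2c6_pos, hwe]
    rfl
  · unfold IndepV at hi ⊢
    have h1 := hi.map' (g⁻¹ : Fr n).toLinearMap (LinearEquiv.ker _)
    have hlen : (l.map fun p => (p.1, g⁻¹ p.2)).length = l.length := List.length_map _
    have h2 := h1.comp _ (Fin.cast_injective hlen)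
    have h3 : (fun i : Fin (l.map fun p => (p.1, g⁻¹ p.2)).length =>
        ((l.map fun p => (p.1, g⁻¹ p.2)).get i).2) =
        ((⇑(g⁻¹ : Fr n).toLinearMap ∘ fun i : Fin l.length => (l.get i).2) ∘ Fin.cast hlen) := by
      funext i
      simp
    rw [h3]
    exact h2
  · unfold NoBlockV
    rw [hS]
    refine D.c2c6_all hk θ ?_ _ l hb
    intro S t β hP a ha d hd had hcon
    refine hP (g a) (D.map_roots g hg a ha) (g d) (D.map_roots g hg d hd)
      (by rw [← map_add, had, hgg]) ?_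
    obtain ⟨q1, q2, q3, q4⟩ := hcon
    rw [c2c6_pos] at q1 q2
    have e : ∀ x y : Vec n, dot (g⁻¹ x) y = dot x (g y) := by
      intro x y
      rw [← D.isom g hg, hgg]
    rw [e] at q1 q2
    refine ⟨q1, q2, ?_, ?_⟩
    · rw [← e]; exact q3
    · rw [← e]; exact q4

end Claimed.Agent.R282.RDatum
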